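import Vale.Agent.P038.H194.Walk
import Mathlib.Combinatorics.Hall.Basic
import Mathlib.Combinatorics.Enumerative.DoubleCounting

/-!
# Restriction to an out-closed set of vertices, and Hall's condition
-/

namespace Vale.Agent.P038.H194

open Finset

variable {V : Type*} [Fintype V] {D : OGraph V}

theorem Hall.plan {v : V} (h : Hall D v) : ∃ φ, Plan D (fun _ => 1) v φ := by
  classical
  have key : ∃ f : {z // z ∈ N2 D v} → V, Function.Injective f ∧
      ∀ y : {z // z ∈ N2 D v}, f y ∈ univ.filter fun x => D.arc v x ∧ D.arc x y.1 := by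
    rw [← Finset.all_card_le_biUnion_card_iff_exists_injective]
    intro s
    obtain ⟨X, hX, hX'⟩ := h (s.map ⟨Subtype.val, Subtype.val_injective⟩) (by
      intro z hz
      obtain ⟨y, _, rfl⟩ := Finset.mem_map.1 hz
      exact y.2)
    rw [Finset.card_map] at hX
    refine hX.trans (Finset.card_le_card fun x hx => ?_)
    obtain ⟨h1, z, hz, h2⟩ := hX' x hx
    obtain ⟨y, hy, rfl⟩ := Finset.mem_map.1 hz
    rw [Finset.mem_biUnion]
    exact ⟨y, hy, Finset.mem_filter.2 ⟨Finset.mem_univ _, h1, h2⟩⟩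
  obtain ⟨f, hf, hf'⟩ := key
  have hf2 : ∀ y : {z // z ∈ N2 D v}, D.arc v (f y) ∧ D.arc (f y) y.1 :=
    fun y => (Finset.mem_filter.1 (hf' y)).2
  refine ⟨fun x z => if ∃ h : z ∈ N2 D v, f ⟨z, h⟩ = x then 1 else 0, ?_, ?_, ?_, ?_⟩
  · intro x z
    split_ifs <;> norm_num
  · intro x z hxz
    split_ifs at hxz with hc
    · obtain ⟨hz, rfl⟩ := hc
      exact ⟨(hf2 _).1, (hf2 ⟨z, hz⟩).2, hz⟩
    · exact absurd rfl hxz
  · intro z hz
    rw [Finset.sum_eq_single (f ⟨z, hz⟩)]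
    · rw [if_pos ⟨hz, rfl⟩]
    · intro b _ hb
      rw [if_neg]
      rintro ⟨_, h2⟩
      exact hb h2.symm
    · intro hn
      exact absurd (Finset.mem_univ _) hn
  · intro x _
    by_cases hx : ∃ z0 : {z // z ∈ N2 D v}, f z0 = x
    · obtain ⟨⟨z0, hz0⟩, rfl⟩ := hx
      rw [Finset.sum_eq_single z0]
      · split_ifs <;> norm_num
      · intro b _ hb
        rw [if_neg]
        rintro ⟨hb1, hb2⟩
        exact hb (congrArg Subtype.val (hf hb2))
      · intro hn
        exact absurd (Finset.mem_univ _) hn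
    · rw [Finset.sum_eq_zero]
      · norm_num
      · intro z _
        rw [if_neg]
        rintro ⟨hz1, hz2⟩
        exact hx ⟨_, hz2⟩

theorem DegreeCondition.hall {v : V} (h : DegreeCondition D v) : Hall D v := by
  classical
  obtain ⟨k, hk, h1, h2⟩ := h
  intro Z hZ
  refine ⟨(N1 D v).filter fun x => ∃ z ∈ Z, D.arc x z, ?_, ?_⟩
  · have := Finset.card_mul_le_card_mul (s := Z) (t := (N1 D v).filter fun x => ∃ z ∈ Z, D.arc x z)
      (fun z x => D.arc x z) (m := k) (n := k) (fun z hz => ?_) (fun x hx => ?_)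
    · exact Nat.le_of_mul_le_mul_right this hk
    · refine (h1 z (hZ hz)).trans (Finset.card_le_card fun x hx => ?_)
      rw [Finset.mem_filter] at hx
      rw [Finset.mem_bipartiteAbove, Finset.mem_filter]
      exact ⟨⟨hx.1, z, hz, hx.2⟩, hx.2⟩
    · refine (Finset.card_le_card fun z hz => ?_).trans (h2 x (Finset.mem_filter.1 hx).1)
      rw [Finset.mem_bipartiteBelow] at hz
      exact Finset.mem_filter.2 ⟨hZ hz.1, hz.2⟩
  · intro x hx
    rw [Finset.mem_filter, mem_N1] at hx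
    exact hx

/-- The oriented graph induced on a set of vertices. -/
def restrict {V : Type*} (D : OGraph V) (S : Set V) : OGraph S where
  arc u v := D.arc u v
  loopless _ := D.loopless _
  asymm _ _ := D.asymm _ _

section

variable {S : Set V} [Fintype S]

theorem mem_N1_restrict {v x : S} : x ∈ N1 (restrict D S) v ↔ (x : V) ∈ N1 D v := by
  rw [mem_N1, mem_N1]
  rfl

theorem mem_N2_restrict (hS : OutClosed D S) {v x : S} :
    x ∈ N2 (restrict D S) v ↔ (x : V) ∈ N2 D v := by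
  rw [mem_N2, mem_N2]
  constructor
  · rintro ⟨h1, h2, q, h3, h4⟩
    exact ⟨fun h => h1 (Subtype.ext h), h2, q, h3, h4⟩
  · rintro ⟨h1, h2, q, h3, h4⟩
    exact ⟨fun h => h1 (congrArg _ h), h2, ⟨q, hS v v.2 q h3⟩, h3, h4⟩

omit [Fintype S] in
theorem N1_sub (hS : OutClosed D S) {v : S} {x : V} (hx : x ∈ N1 D v) : x ∈ S :=
  hS v v.2 x (mem_N1.1 hx)

omit [Fintype S] in
theorem N2_sub (hS : OutClosed D S) {v : S} {x : V} (hx : x ∈ N2 D v) : x ∈ S := by
  obtain ⟨_, _, q, h1, h2⟩ := mem_N2.1 hx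
  exact hS q (hS v v.2 q h1) x h2

theorem sum_restrict (f : V → ℝ) (hf : ∀ x, f x ≠ 0 → x ∈ S) : ∑ x : S, f x = ∑ x, f x := by
  classical
  have h1 : ∑ x ∈ univ.filter (· ∈ S), f x = ∑ x : S, f x :=
    Finset.sum_subtype _ (by simp) f
  rw [← h1]
  refine Finset.sum_subset (Finset.subset_univ _) fun x _ hx => ?_
  by_contra hne
  exact hx (Finset.mem_filter.2 ⟨Finset.mem_univ _, hf x hne⟩)

theorem sum_N1_restrict (hS : OutClosed D S) (w : V → ℝ) (v : S) :
    ∑ x ∈ N1 (restrict D S) v, w x = ∑ x ∈ N1 D v, w x := by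
  refine Finset.sum_bij (fun x _ => (x : V)) (fun x hx => mem_N1_restrict.1 hx)
    (fun x _ y _ h => Subtype.ext h) (fun x hx => ?_) (fun x _ => rfl)
  exact ⟨⟨x, N1_sub hS hx⟩, mem_N1_restrict.2 hx, rfl⟩

theorem sum_N2_restrict (hS : OutClosed D S) (w : V → ℝ) (v : S) :
    ∑ x ∈ N2 (restrict D S) v, w x = ∑ x ∈ N2 D v, w x := by
  refine Finset.sum_bij (fun x _ => (x : V)) (fun x hx => (mem_N2_restrict hS).1 hx)
    (fun x _ y _ h => Subtype.ext h) (fun x hx => ?_) (fun x _ => rfl)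
  exact ⟨⟨x, N2_sub hS hx⟩, (mem_N2_restrict hS).2 hx, rfl⟩

theorem Plan.restrict {w : V → ℝ} {v : S} {φ : V → V → ℝ} (hS : OutClosed D S)
    (h : Plan D w v φ) :
    Plan (restrict D S) (fun x => w x) v fun x z => φ x z := by
  refine ⟨fun x z => h.nonneg _ _, ?_, ?_, ?_⟩
  · intro x z hxz
    obtain ⟨h1, h2, h3⟩ := h.supp x z hxz
    exact ⟨h1, h2, (mem_N2_restrict hS).2 h3⟩
  · intro z hz
    rw [← h.cover z ((mem_N2_restrict hS).1 hz)]
    exact sum_restrict (fun x => φ x z) fun x hx => hS v v.2 x (h.supp x z hx).1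
  · intro x hx
    refine le_of_eq_of_le ?_ (h.cap x hx)
    exact sum_restrict (fun z => φ x z) fun z hz => N2_sub hS (h.supp x z hz).2.2

end

theorem exists_eq_closed {w : V → ℝ} {S : Set V} (hne : S.Nonempty) (hS : OutClosed D S)
    (hw : ∀ v ∈ S, 0 < w v) (hp : ∀ v ∈ S, ∃ φ, Plan D w v φ) :
    ∃ v ∈ S, ∑ x ∈ N1 D v, w x = ∑ z ∈ N2 D v, w z := by
  classical
  have : Nonempty S := hne.to_subtype
  obtain ⟨v, hv⟩ := exists_eq_of_plan (D := restrict D S) (w := fun x => w x)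
    (fun x => hw x x.2) (fun x => by
      obtain ⟨φ, hφ⟩ := hp x x.2
      exact ⟨_, hφ.restrict hS⟩)
  rw [sum_N1_restrict hS w v, sum_N2_restrict hS w v] at hv
  exact ⟨v, v.2, hv⟩

theorem exists_card_eq_closed {S : Set V} (hne : S.Nonempty) (hS : OutClosed D S)
    (hp : ∀ v ∈ S, Hall D v) : ∃ v ∈ S, (N1 D v).card = (N2 D v).card := by
  obtain ⟨v, hv, h⟩ := exists_eq_closed (w := fun _ => 1) hne hS (fun _ _ => zero_lt_one)
    fun v hv => (hp v hv).plan
  refine ⟨v, hv, ?_⟩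
  simpa using h

end Vale.Agent.P038.H194
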