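import Vale.Agent.P038.Defs

/-!
# Matchings of the second out-neighbourhood into the first one: definitions
-/

namespace Vale.Agent.P038.H194

open Finset

section

variable {V : Type*}

/-- The directed distance from `x` to `y` is at most two. -/
def Near (D : OGraph V) (x y : V) : Prop := x = y ∨ D.arc x y ∨ ∃ q, D.arc x q ∧ D.arc q y

/-- The set `S` is closed under arcs. -/
def OutClosed {V : Type*} (D : OGraph V) (S : Set V) : Prop := ∀ v ∈ S, ∀ x, D.arc v x → x ∈ S

end

variable {V : Type*} [Fintype V]

/-- Hall's condition at `v`: every set `Z` of second out-neighbours of `v` has at least `|Z|`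
in-neighbours among the out-neighbours of `v`. -/
def Hall (D : OGraph V) (v : V) : Prop :=
  ∀ Z : Finset V, Z ⊆ N2 D v →
    ∃ X : Finset V, Z.card ≤ X.card ∧ ∀ x ∈ X, D.arc v x ∧ ∃ z ∈ Z, D.arc x z

open Classical in
/-- A degree condition that implies Hall's condition at `v`: for some `k ≥ 1` every second
out-neighbour of `v` has at least `k` in-neighbours among the out-neighbours of `v`, and every
out-neighbour of `v` has at most `k` out-neighbours among the second out-neighbours of `v`. -/
def DegreeCondition (D : OGraph V) (v : V) : Prop :=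
  ∃ k : ℕ, 1 ≤ k ∧ (∀ z ∈ N2 D v, k ≤ ((N1 D v).filter fun x => D.arc x z).card) ∧
    ∀ x ∈ N1 D v, ((N2 D v).filter fun z => D.arc x z).card ≤ k

/-- A fractional matching, along arcs, of the whole second out-neighbourhood of `v` into its first
out-neighbourhood, with respect to the vertex weights `w`: `φ x z` is the amount of `x` used
by `z`. -/
structure Plan (D : OGraph V) (w : V → ℝ) (v : V) (φ : V → V → ℝ) : Prop where
  /-- amounts are nonnegative -/
  nonneg : ∀ x z, 0 ≤ φ x z
  /-- only arcs `x → z` with `v → x`, `z` in the second neighbourhood of `v` are used -/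
  supp : ∀ x z, φ x z ≠ 0 → D.arc v x ∧ D.arc x z ∧ z ∈ N2 D v
  /-- every second out-neighbour is completely covered -/
  cover : ∀ z ∈ N2 D v, ∑ x, φ x z = w z
  /-- no out-neighbour is used more than its weight -/
  cap : ∀ x, D.arc v x → ∑ z, φ x z ≤ w x

/-- The arc `v → x` is not needed by some fractional matching of the second out-neighbourhood of
`v` into the first one. -/
def Unsat (D : OGraph V) (w : V → ℝ) (v x : V) : Prop :=
  D.arc v x ∧ ∃ φ, Plan D w v φ ∧ ∑ z, φ x z < w x

end Vale.Agent.P038.H194
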