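import Vale.Agent.P038.H194.Tight

/-!
# Exactness of fractional matchings along tight paths
-/

namespace Vale.Agent.P038.H194

open Finset

variable {V : Type*} [Fintype V] {D : OGraph V} {w : V → ℝ}

theorem sum_windows (F : List V → ℝ) (k : ℕ) :
    ∑ Q : Fin k → V, ∑ x, F (List.ofFn Q ++ [x]) = ∑ Q : Fin k → V, ∑ z, F (z :: List.ofFn Q) := by
  have h1 : ∑ W : Fin (k + 1) → V, F (List.ofFn W) =
      ∑ Q : Fin k → V, ∑ x, F (List.ofFn Q ++ [x]) := by
    rw [← Equiv.sum_comp (Fin.snocEquiv (fun _ : Fin (k + 1) => V)), Fintype.sum_prod_type,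
      Finset.sum_comm]
    refine Finset.sum_congr rfl fun Q _ => Finset.sum_congr rfl fun x _ => ?_
    rw [List.ofFn_succ', List.concat_eq_append]
    simp [Fin.snocEquiv]
  have h2 : ∑ W : Fin (k + 1) → V, F (List.ofFn W) =
      ∑ Q : Fin k → V, ∑ z, F (z :: List.ofFn Q) := by
    rw [← Equiv.sum_comp (Fin.consEquiv (fun _ : Fin (k + 1) => V)), Fintype.sum_prod_type,
      Finset.sum_comm]
    refine Finset.sum_congr rfl fun Q _ => Finset.sum_congr rfl fun x _ => ?_
    rw [List.ofFn_succ]
    simp [Fin.consEquiv]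
  rw [← h1, h2]

open Classical in
/-- Total weight of the vertices that can be appended. -/
noncomputable def outW (D : OGraph V) (w : V → ℝ) (L : List V) : ℝ :=
  ∑ x, if Out D L x then w x else 0

open Classical in
/-- Total weight of the vertices that can be put in front. -/
noncomputable def innW (D : OGraph V) (w : V → ℝ) (L : List V) : ℝ :=
  ∑ z, if Inn D L z then w z else 0

open Classical in
/-- The weight of a tight path, zero for other lists. -/
noncomputable def tw (D : OGraph V) (w : V → ℝ) (L : List V) : ℝ :=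
  if Tight D L then (L.map w).prod else 0

omit [Fintype V] in
theorem tw_nonneg (hw : ∀ v, 0 < w v) (L : List V) : 0 ≤ tw D w L := by
  classical
  unfold tw
  split_ifs
  · exact List.prod_nonneg fun a ha => by
      obtain ⟨v, _, rfl⟩ := List.mem_map.1 ha
      exact (hw v).le
  · exact le_rfl

omit [Fintype V] in
theorem tw_pos (hw : ∀ v, 0 < w v) {L : List V} (hL : Tight D L) : 0 < tw D w L := by
  classical
  unfold tw
  rw [if_pos hL]
  exact List.prod_pos fun a ha => by
    obtain ⟨v, _, rfl⟩ := List.mem_map.1 ha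
    exact hw v

theorem double_count (w : V → ℝ) {k : ℕ} (hk : k ≠ 0) :
    ∑ Q : Fin k → V, tw D w (List.ofFn Q) * outW D w (List.ofFn Q) =
      ∑ Q : Fin k → V, tw D w (List.ofFn Q) * innW D w (List.ofFn Q) := by
  classical
  have hne : ∀ Q : Fin k → V, List.ofFn Q ≠ [] := by
    intro Q h
    rw [List.ofFn_eq_nil_iff] at h
    exact hk h
  have h := sum_windows (fun L => if IsWin D L then (L.map w).prod else 0) k
  have h1 : ∀ Q : Fin k → V,
      (∑ x, if IsWin D (List.ofFn Q ++ [x]) then ((List.ofFn Q ++ [x]).map w).prod else 0) =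
        tw D w (List.ofFn Q) * outW D w (List.ofFn Q) := by
    intro Q
    rw [outW, Finset.mul_sum]
    refine Finset.sum_congr rfl fun x _ => ?_
    unfold tw
    by_cases hT : Tight D (List.ofFn Q)
    · by_cases hO : Out D (List.ofFn Q) x
      · rw [if_pos ((isWin_append (hne Q)).2 ⟨hT, hO⟩), if_pos hT, if_pos hO]
        simp
      · rw [if_neg (fun h => hO ((isWin_append (hne Q)).1 h).2), if_neg hO, mul_zero]
    · rw [if_neg (fun h => hT ((isWin_append (hne Q)).1 h).1), if_neg hT, zero_mul]
  have h2 : ∀ Q : Fin k → V,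
      (∑ z, if IsWin D (z :: List.ofFn Q) then ((z :: List.ofFn Q).map w).prod else 0) =
        tw D w (List.ofFn Q) * innW D w (List.ofFn Q) := by
    intro Q
    rw [innW, Finset.mul_sum]
    refine Finset.sum_congr rfl fun z _ => ?_
    unfold tw
    by_cases hT : Tight D (List.ofFn Q)
    · by_cases hO : Inn D (List.ofFn Q) z
      · rw [if_pos ((isWin_cons (hne Q)).2 ⟨hT, hO⟩), if_pos hT, if_pos hO]
        simp [mul_comm]
      · rw [if_neg (fun h => hO ((isWin_cons (hne Q)).1 h).2), if_neg hO, mul_zero]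
    · rw [if_neg (fun h => hT ((isWin_cons (hne Q)).1 h).1), if_neg hT, zero_mul]
  rw [Finset.sum_congr rfl fun Q _ => (h1 Q).symm, Finset.sum_congr rfl fun Q _ => (h2 Q).symm]
  exact h

omit [Fintype V] in
theorem getLast?_suffix {Q L : List V} (hQ : Q ≠ []) (h : Q <:+ L) :
    Q.getLast? = L.getLast? := by
  obtain ⟨t, rfl⟩ := h
  rw [List.getLast?_append]
  obtain ⟨c, hc⟩ : ∃ c, Q.getLast? = some c := by
    rw [← Option.ne_none_iff_exists']
    simpa using hQ
  rw [hc]
  rfl

/-- The statement proved by induction on the length of the tight path. -/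
def Exact (D : OGraph V) (w : V → ℝ) (L : List V) : Prop :=
  L ≠ [] → Tight D L → ∀ c ∈ L.getLast?, ∀ φ, Plan D w c φ → ∀ x, Out D L x →
    (∀ z, φ x z ≠ 0 → Inn D L z) ∧ ∑ z, φ x z = w x

theorem out_of_inn {L : List V} (hL : L ≠ []) (hT : Tight D L) {c : V} (hc : c ∈ L.getLast?)
    {φ : V → V → ℝ} (hφ : Plan D w c φ) {x z : V} (hz : Inn D L z) (hxz : φ x z ≠ 0)
    (ih : ∀ L' : List V, L'.length < L.length → Exact D w L') : Out D L x := by
  obtain ⟨hcx, hxz', hz2⟩ := hφ.supp x z hxz
  obtain ⟨a, l, rfl⟩ := List.exists_cons_of_ne_nil hL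
  have hlast : ∀ q ∈ (a :: l).getLast?, D.arc q x := by
    intro q hq
    have : q = c := by
      rw [Option.mem_def] at hq hc
      rw [hq] at hc
      exact Option.some_injective _ hc
    rw [this]
    exact hcx
  have hch : ∀ q ∈ (a :: l).dropLast, ¬ D.arc q x := fun q hq h =>
    hz.nr q hq (near_of_two h hxz')
  have hxa : Near D x a := near_of_two hxz' (hz.arc a (by simp))
  have htail : ∀ q ∈ l, ¬ Near D x q := by
    intro q hq hn
    have hl : l ≠ [] := List.ne_nil_of_mem hq
    have hlast' : ∀ q ∈ l.getLast?, D.arc q x := by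
      intro q hq
      refine hlast q ?_
      rw [← getLast?_suffix hl (List.suffix_cons a l)]
      exact hq
    have hch' : ∀ q ∈ l.dropLast, ¬ D.arc q x := by
      intro q hq
      refine hch q ?_
      rw [List.dropLast_cons_of_ne_nil hl]
      exact List.mem_cons_of_mem _ hq
    obtain ⟨Q', hne, hs, hT', hO⟩ := exists_suffix hT.tail hlast' hch' ⟨q, hq, hn⟩
    have hlen : Q'.length < (a :: l).length := by
      have := hs.length_le
      simp only [List.length_cons]
      omega
    have hc' : c ∈ Q'.getLast? := by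
      rw [getLast?_suffix hne hs, getLast?_suffix hl (List.suffix_cons a l)]
      exact hc
    have hI := (ih Q' hlen hne hT' c hc' φ hφ x hO).1 z hxz
    obtain ⟨b, m, rfl⟩ := List.exists_cons_of_ne_nil hne
    exact hz.nochord b (hs.subset (by simp)) (hI.arc b (by simp))
  refine ⟨hlast, hch, ?_, htail⟩
  intro q hq
  simp only [List.head?_cons, Option.mem_def, Option.some.injEq] at hq
  subst hq
  cases l with
  | nil => exact mem_N2_of_near_of_arc hxa (hlast a (by simp))
  | cons b l => exact mem_N2_of_near hxa (List.isChain_cons_cons.1 hT.chain).1 (htail b (by simp))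

theorem innW_eq_sum {L : List V} {c : V} (hc : c ∈ L.getLast?) {φ : V → V → ℝ}
    (hφ : Plan D w c φ) :
    innW D w L = ∑ x, ∑ z, (open Classical in if Inn D L z then φ x z else 0) := by
  classical
  rw [Finset.sum_comm, innW]
  refine Finset.sum_congr rfl fun z _ => ?_
  by_cases hz : Inn D L z
  · simp only [if_pos hz]
    exact (hφ.cover z (hz.back c hc)).symm
  · simp [if_neg hz]

theorem exact_all (hw : ∀ v, 0 < w v) (hp : ∀ v, ∃ φ, Plan D w v φ) :
    ∀ L : List V, Exact D w L := by
  classical
  suffices H : ∀ k : ℕ, ∀ L : List V, L.length = k → Exact D w L from fun L => H _ L rfl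
  intro k
  induction k using Nat.strong_induction_on with
  | _ k ih =>
  intro L hLk hL hT c hc φ hφ x hx
  have ih' : ∀ M : List V, M.length = k → ∀ L' : List V, L'.length < M.length →
      Exact D w L' := fun M hM L' hL' => ih _ (hM ▸ hL') L' rfl
  have hk : k ≠ 0 := by
    rintro rfl
    exact hL (List.length_eq_zero_iff.1 hLk)
  -- the inequality, with its terms
  have key : ∀ (M : List V), M.length = k → Tight D M → ∀ d ∈ M.getLast?, ∀ ψ, Plan D w d ψ →
      (∀ y, (∑ z, if Inn D M z then ψ y z else 0) ≤ if Out D M y then w y else 0) := by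
    intro M hM hMT d hd ψ hψ y
    have hMne : M ≠ [] := by
      rintro rfl
      exact hk (by simpa using hM.symm)
    by_cases hy : Out D M y
    · rw [if_pos hy]
      refine le_trans (Finset.sum_le_sum fun z _ => ?_) (hψ.cap y (hy.arc d hd))
      split_ifs
      · exact le_rfl
      · exact hψ.nonneg y z
    · rw [if_neg hy]
      refine (Finset.sum_eq_zero fun z _ => ?_).le
      split_ifs with hz
      · by_contra hne
        exact hy (out_of_inn hMne hMT hd hψ hz hne (ih' M hM))
      · rfl
  have hle : ∀ Q : Fin k → V, tw D w (List.ofFn Q) * innW D w (List.ofFn Q) ≤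
      tw D w (List.ofFn Q) * outW D w (List.ofFn Q) := by
    intro Q
    by_cases hQ : Tight D (List.ofFn Q)
    · refine mul_le_mul_of_nonneg_left ?_ (tw_nonneg hw _)
      have hne : List.ofFn Q ≠ [] := by
        intro h
        rw [List.ofFn_eq_nil_iff] at h
        exact hk h
      obtain ⟨d, hd⟩ : ∃ d, (List.ofFn Q).getLast? = some d := by
        rw [← Option.ne_none_iff_exists']
        simpa using hne
      obtain ⟨ψ, hψ⟩ := hp d
      rw [innW_eq_sum hd hψ, outW]
      exact Finset.sum_le_sum fun y _ => key _ (List.length_ofFn) hQ d hd ψ hψ y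
    · simp [tw, if_neg hQ]
  have heq := (Finset.sum_eq_sum_iff_of_le (fun Q (_ : Q ∈ Finset.univ) => hle Q)).1
    (double_count (D := D) w hk).symm
  have hL' : List.ofFn (fun i : Fin k => L.get (i.cast hLk.symm)) = L := by
    subst hLk
    simp
  have h1 := heq (fun i : Fin k => L.get (i.cast hLk.symm)) (Finset.mem_univ _)
  rw [hL'] at h1
  have h2 : innW D w L = outW D w L := mul_left_cancel₀ (tw_pos hw hT).ne' h1
  rw [innW_eq_sum hc hφ, outW] at h2
  have h3 := (Finset.sum_eq_sum_iff_of_le
    (fun y (_ : y ∈ Finset.univ) => key L hLk hT c hc φ hφ y)).1 h2 x (Finset.mem_univ _)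
  rw [if_pos hx] at h3
  have h4 : (∑ z, if Inn D L z then φ x z else 0) ≤ ∑ z, φ x z := by
    refine Finset.sum_le_sum fun z _ => ?_
    split_ifs
    · exact le_rfl
    · exact hφ.nonneg x z
  have h5 : ∑ z, φ x z ≤ w x := hφ.cap x (hx.arc c hc)
  have h6 : ∑ z, φ x z = w x := le_antisymm h5 (h3 ▸ h4)
  refine ⟨?_, h6⟩
  intro z hz
  by_contra hI
  have h7 : (∑ z, if Inn D L z then φ x z else 0) = ∑ z, φ x z := by rw [h3, h6]
  have h8 := (Finset.sum_eq_sum_iff_of_le (fun z (_ : z ∈ Finset.univ) => by
    show (if Inn D L z then φ x z else 0) ≤ φ x z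
    split_ifs
    · exact le_rfl
    · exact hφ.nonneg x z)).1 h7 z (Finset.mem_univ _)
  simp only [if_neg hI] at h8
  exact hz h8.symm

end Vale.Agent.P038.H194
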