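import Vale.Agent.P038.H194.Defs

/-!
# Tight paths and windows

`Near D x y`: the directed distance from `x` to `y` is at most two.  A tight path is a directed
path without forward chords whose vertices never return within distance two to an earlier vertex.
A window is a tight path together with one more vertex, whose only return within distance two is
to the first vertex.
-/

namespace Vale.Agent.P038.H194

open Finset

variable {V : Type*} {D : OGraph V}

theorem near_self (x : V) : Near D x x := Or.inl rfl

theorem near_of_arc {x y : V} (h : D.arc x y) : Near D x y := Or.inr (Or.inl h)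

theorem near_of_two {x q y : V} (h : D.arc x q) (h' : D.arc q y) : Near D x y :=
  Or.inr (Or.inr ⟨q, h, h'⟩)

theorem near_of_mem_N2 [Fintype V] {x y : V} (h : y ∈ N2 D x) : Near D x y := by
  rw [mem_N2] at h
  obtain ⟨_, _, q, h1, h2⟩ := h
  exact near_of_two h1 h2

/-- If `x` is near `a`, `a → b` and `x` is not near `b`, then `a` is at distance exactly two. -/
theorem mem_N2_of_near [Fintype V] {x a b : V} (h : Near D x a) (hab : D.arc a b) (hb : ¬ Near D x b) :
    a ∈ N2 D x := by
  rcases h with rfl | h | ⟨q, h1, h2⟩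
  · exact absurd (near_of_arc hab) hb
  · exact absurd (near_of_two h hab) hb
  · rw [mem_N2]
    refine ⟨?_, fun h => hb (near_of_two h hab), q, h1, h2⟩
    rintro rfl
    exact hb (near_of_arc hab)

/-- If `x` is near `a` and `a → x`, then `a` is at distance exactly two from `x`. -/
theorem mem_N2_of_near_of_arc [Fintype V] {x a : V} (h : Near D x a) (hax : D.arc a x) : a ∈ N2 D x := by
  rcases h with rfl | h | ⟨q, h1, h2⟩
  · exact absurd hax (D.loopless _)
  · exact absurd hax (D.asymm _ _ h)
  · rw [mem_N2]
    refine ⟨?_, fun h => D.asymm _ _ h hax, q, h1, h2⟩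
    rintro rfl
    exact D.loopless _ hax

/-- No forward chord. -/
def NoChord (D : OGraph V) : List V → Prop
  | [] => True
  | a :: l => (∀ x ∈ l.tail, ¬ D.arc a x) ∧ NoChord D l

/-- A tight path. -/
structure Tight (D : OGraph V) (Q : List V) : Prop where
  chain : Q.IsChain D.arc
  nochord : NoChord D Q
  nr : Q.Pairwise fun a b => ¬ Near D b a

/-- `x` can be appended to the path `Q`, closing a window. -/
structure Out [Fintype V] (D : OGraph V) (Q : List V) (x : V) : Prop where
  arc : ∀ q ∈ Q.getLast?, D.arc q x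
  nochord : ∀ q ∈ Q.dropLast, ¬ D.arc q x
  back : ∀ q ∈ Q.head?, q ∈ N2 D x
  nr : ∀ q ∈ Q.tail, ¬ Near D x q

/-- `z` can be put in front of the path `Q`, closing a window. -/
structure Inn [Fintype V] (D : OGraph V) (Q : List V) (z : V) : Prop where
  arc : ∀ q ∈ Q.head?, D.arc z q
  nochord : ∀ q ∈ Q.tail, ¬ D.arc z q
  back : ∀ q ∈ Q.getLast?, z ∈ N2 D q
  nr : ∀ q ∈ Q.dropLast, ¬ Near D q z

/-- A window. -/
structure IsWin [Fintype V] (D : OGraph V) (W : List V) : Prop where
  chain : W.IsChain D.arc
  nochord : NoChord D W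
  nrTail : W.tail.Pairwise fun a b => ¬ Near D b a
  nrInit : W.dropLast.Pairwise fun a b => ¬ Near D b a
  back : ∀ a ∈ W.head?, ∀ b ∈ W.getLast?, a ∈ N2 D b

theorem noChord_append {Q : List V} {x : V} :
    NoChord D (Q ++ [x]) ↔ NoChord D Q ∧ ∀ q ∈ Q.dropLast, ¬ D.arc q x := by
  induction Q with
  | nil => simp [NoChord]
  | cons a l ih =>
    cases l with
    | nil => simp [NoChord]
    | cons b l =>
      have h1 : ((b :: l) ++ [x]).tail = l ++ [x] := rfl
      have h2 : (a :: b :: l).dropLast = a :: (b :: l).dropLast := rfl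
      rw [List.cons_append, NoChord, ih, h1, h2, NoChord]
      constructor
      · rintro ⟨h3, h4, h5⟩
        refine ⟨⟨fun y hy => h3 y (List.mem_append_left _ hy), h4⟩, fun q hq => ?_⟩
        rcases List.mem_cons.1 hq with rfl | hq
        · exact h3 x (List.mem_append_right _ (List.mem_singleton_self x))
        · exact h5 q hq
      · rintro ⟨⟨h3, h4⟩, h5⟩
        refine ⟨fun y hy => ?_, h4, fun q hq => h5 q (List.mem_cons_of_mem _ hq)⟩
        rcases List.mem_append.1 hy with hy | hy
        · exact h3 y hy
        · rw [List.mem_singleton.1 hy]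
          exact h5 a List.mem_cons_self

theorem isWin_append [Fintype V] {Q : List V} (hQ : Q ≠ []) {x : V} :
    IsWin D (Q ++ [x]) ↔ Tight D Q ∧ Out D Q x := by
  obtain ⟨a, l, rfl⟩ := List.exists_cons_of_ne_nil hQ
  constructor
  · rintro ⟨h1, h2, h3, h4, h5⟩
    rw [List.isChain_append] at h1
    rw [noChord_append] at h2
    rw [List.dropLast_concat] at h4
    have h3' : (l ++ [x]).Pairwise fun a b => ¬ Near D b a := h3
    rw [List.pairwise_append] at h3'
    refine ⟨⟨h1.1, h2.1, h4⟩, ⟨?_, h2.2, ?_, ?_⟩⟩
    · exact fun q hq => h1.2.2 q hq x (by simp)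
    · intro q hq
      exact h5 q (by simpa using hq) x (by rw [List.getLast?_append]; simp)
    · intro q hq
      exact h3'.2.2 q hq x (by simp)
  · rintro ⟨⟨h1, h2, h3⟩, ⟨h4, h5, h6, h7⟩⟩
    refine ⟨?_, ?_, ?_, ?_, ?_⟩
    · rw [List.isChain_append]
      refine ⟨h1, List.isChain_singleton _, ?_⟩
      intro y hy z hz
      simp only [List.head?_cons, Option.mem_def, Option.some.injEq] at hz
      subst hz
      exact h4 y hy
    · rw [noChord_append]
      exact ⟨h2, h5⟩
    · change (l ++ [x]).Pairwise fun a b => ¬ Near D b a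
      rw [List.pairwise_append]
      refine ⟨(List.pairwise_cons.1 h3).2, List.pairwise_singleton _ _, ?_⟩
      intro y hy z hz
      simp only [List.mem_singleton] at hz
      subst hz
      exact h7 y hy
    · rw [List.dropLast_concat]
      exact h3
    · intro y hy z hz
      simp only [List.cons_append, List.head?_cons, Option.mem_def, Option.some.injEq] at hy
      rw [List.getLast?_append] at hz
      simp only [List.getLast?_singleton, Option.some_or, Option.mem_def, Option.some.injEq] at hz
      subst hy
      subst hz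
      exact h6 a (by simp)

theorem isWin_cons [Fintype V] {Q : List V} (hQ : Q ≠ []) {z : V} :
    IsWin D (z :: Q) ↔ Tight D Q ∧ Inn D Q z := by
  have hd : (z :: Q).dropLast = z :: Q.dropLast := List.dropLast_cons_of_ne_nil hQ
  have hl : (z :: Q).getLast? = Q.getLast? := by
    obtain ⟨a, l, rfl⟩ := List.exists_cons_of_ne_nil hQ
    simp
  constructor
  · rintro ⟨h1, h2, h3, h4, h5⟩
    rw [List.isChain_cons] at h1
    rw [hd, List.pairwise_cons] at h4
    rw [hl] at h5
    exact ⟨⟨h1.2, h2.2, h3⟩, ⟨h1.1, h2.1, fun q hq => h5 z (by simp) q hq, h4.1⟩⟩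
  · rintro ⟨⟨h1, h2, h3⟩, ⟨h4, h5, h6, h7⟩⟩
    refine ⟨?_, ⟨h5, h2⟩, h3, ?_, ?_⟩
    · rw [List.isChain_cons]
      exact ⟨h4, h1⟩
    · rw [hd, List.pairwise_cons]
      exact ⟨h7, h3.sublist (List.dropLast_sublist Q)⟩
    · rw [hl]
      intro y hy q hq
      simp only [List.head?_cons, Option.mem_def, Option.some.injEq] at hy
      subst hy
      exact h6 q hq

theorem Tight.tail {a : V} {l : List V} (h : Tight D (a :: l)) : Tight D l :=
  ⟨(List.isChain_cons.1 h.chain).2, h.nochord.2, (List.pairwise_cons.1 h.nr).2⟩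

/-- The key suffix: if `x` is an out-neighbour of the last vertex of the tight path `Q`, is not
dominated by an earlier vertex, and is near to some vertex of `Q`, then some nonempty suffix of
`Q` is closed to a window by `x`. -/
theorem exists_suffix [Fintype V] {x : V} : ∀ {Q : List V}, Tight D Q → (∀ q ∈ Q.getLast?, D.arc q x) →
    (∀ q ∈ Q.dropLast, ¬ D.arc q x) → (∃ q ∈ Q, Near D x q) →
    ∃ Q', Q' ≠ [] ∧ Q' <:+ Q ∧ Tight D Q' ∧ Out D Q' x
  | [], _, _, _, h => by
    obtain ⟨q, hq, _⟩ := h
    simp at hq
  | [a], hT, h1, _, h => by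
    obtain ⟨q, hq, hn⟩ := h
    simp only [List.mem_singleton] at hq
    subst hq
    refine ⟨[q], by simp, List.suffix_rfl, hT, ⟨h1, by simp, ?_, by simp⟩⟩
    intro y hy
    simp only [List.head?_cons, Option.mem_def, Option.some.injEq] at hy
    subst hy
    exact mem_N2_of_near_of_arc hn (h1 q (by simp))
  | a :: b :: l, hT, h1, h2, h => by
    have h1' : ∀ q ∈ (b :: l).getLast?, D.arc q x := by
      intro q hq
      exact h1 q (by simpa using hq)
    have h2' : ∀ q ∈ (b :: l).dropLast, ¬ D.arc q x := by
      intro q hq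
      refine h2 q ?_
      rw [List.dropLast_cons_of_ne_nil (by simp)]
      exact List.mem_cons_of_mem _ hq
    by_cases hc : ∃ q ∈ b :: l, Near D x q
    · obtain ⟨Q', hne, hs, hT', hO⟩ := exists_suffix hT.tail h1' h2' hc
      exact ⟨Q', hne, hs.trans (List.suffix_cons a _), hT', hO⟩
    · push Not at hc
      refine ⟨a :: b :: l, by simp, List.suffix_rfl, hT, ⟨h1, h2, ?_, ?_⟩⟩
      · intro y hy
        simp only [List.head?_cons, Option.mem_def, Option.some.injEq] at hy
        subst hy
        obtain ⟨q, hq, hn⟩ := h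
        rcases List.mem_cons.1 hq with rfl | hq
        · exact mem_N2_of_near hn (List.isChain_cons_cons.1 hT.chain).1 (hc b (by simp))
        · exact absurd hn (hc q hq)
      · intro q hq
        exact hc q (by simpa using hq)

end Vale.Agent.P038.H194
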