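import Vale.Agent.P038.H194.Exact

/-!
# Walks without short returns, and the main theorem
-/

namespace Vale.Agent.P038.H194

open Finset

variable {V : Type*} [Fintype V] {D : OGraph V} {w : V → ℝ}

/-- `u 0 → u 1 → ... → u n`, and no vertex of the walk is within distance two from a later one. -/
structure NRWalk (D : OGraph V) (u : ℕ → V) (n : ℕ) : Prop where
  arc : ∀ i < n, D.arc (u i) (u (i + 1))
  nr : ∀ i j, i < j → j ≤ n → ¬ Near D (u j) (u i)

open Classical in
/-- The last out-neighbour, in the walk, of the `i`-th vertex. -/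
noncomputable def nxt (D : OGraph V) (u : ℕ → V) (n i : ℕ) : ℕ :=
  Nat.findGreatest (fun j => D.arc (u i) (u j)) n

open Classical in
/-- The greedy path from the `i`-th vertex, stopped at the first vertex that dominates `x`. -/
noncomputable def path (D : OGraph V) (u : ℕ → V) (n : ℕ) (x : V) : ℕ → ℕ → List V
  | 0, i => [u i]
  | f + 1, i => if D.arc (u i) x then [u i] else u i :: path D u n x f (nxt D u n i)

omit [Fintype V] in
theorem path_ne_nil (u : ℕ → V) (n : ℕ) (x : V) : ∀ f i, path D u n x f i ≠ []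
  | 0, i => by simp [path]
  | f + 1, i => by
    unfold path
    split_ifs <;> simp

omit [Fintype V] in
theorem path_head (u : ℕ → V) (n : ℕ) (x : V) : ∀ f i, (path D u n x f i).head? = some (u i)
  | 0, i => by simp [path]
  | f + 1, i => by
    unfold path
    split_ifs <;> simp

omit [Fintype V] in
theorem path_spec {u : ℕ → V} {n : ℕ} (hP : NRWalk D u n) {x : V} (hx : D.arc (u n) x) :
    ∀ f i, i ≤ n → n ≤ i + f →
      (∀ y ∈ (path D u n x f i).tail, ∃ j, i < j ∧ j ≤ n ∧ y = u j) ∧
      Tight D (path D u n x f i) ∧ (∀ q ∈ (path D u n x f i).getLast?, D.arc q x) ∧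
      ∀ q ∈ (path D u n x f i).dropLast, ¬ D.arc q x := by
  classical
  intro f
  induction f with
  | zero =>
    intro i h1 h2
    obtain rfl : i = n := by omega
    refine ⟨by simp [path], ⟨by simp [path], by simp [path, NoChord], by simp [path]⟩, ?_,
      by simp [path]⟩
    intro q hq
    simp only [path, List.getLast?_singleton, Option.mem_def, Option.some.injEq] at hq
    rw [← hq]
    exact hx
  | succ f ih =>
    intro i h1 h2
    by_cases hi : D.arc (u i) x
    · have hp : path D u n x (f + 1) i = [u i] := by simp [path, hi]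
      rw [hp]
      refine ⟨by simp, ⟨by simp, by simp [NoChord], by simp⟩, ?_, by simp⟩
      intro q hq
      simp only [List.getLast?_singleton, Option.mem_def, Option.some.injEq] at hq
      rw [← hq]
      exact hi
    · have hlt : i < n := by
        rcases Nat.lt_or_eq_of_le h1 with h | h
        · exact h
        · exact absurd (h ▸ hx) hi
      have harc : D.arc (u i) (u (i + 1)) := hP.arc i hlt
      have hj1 : i + 1 ≤ nxt D u n i := Nat.le_findGreatest hlt harc
      have hj2 : nxt D u n i ≤ n := Nat.findGreatest_le n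
      have hj3 : D.arc (u i) (u (nxt D u n i)) :=
        Nat.findGreatest_spec (P := fun j => D.arc (u i) (u j)) hlt harc
      have hj4 : ∀ j, nxt D u n i < j → j ≤ n → ¬ D.arc (u i) (u j) := fun j hj hjn =>
        Nat.findGreatest_is_greatest (P := fun j => D.arc (u i) (u j)) hj hjn
      obtain ⟨t1, t2, t3, t4⟩ := ih (nxt D u n i) hj2 (by omega)
      have hp : path D u n x (f + 1) i = u i :: path D u n x f (nxt D u n i) := by
        simp [path, hi]
      have hne := path_ne_nil (D := D) u n x f (nxt D u n i)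
      have hhead := path_head (D := D) u n x f (nxt D u n i)
      have hmem : ∀ y ∈ path D u n x f (nxt D u n i), ∃ j, i < j ∧ j ≤ n ∧ y = u j := by
        intro y hy
        obtain ⟨a, l, hal⟩ := List.exists_cons_of_ne_nil hne
        rw [hal] at hy hhead t1
        simp only [List.head?_cons, Option.some.injEq] at hhead
        rcases List.mem_cons.1 hy with rfl | hy
        · exact ⟨nxt D u n i, by omega, hj2, hhead⟩
        · obtain ⟨j, hj, hjn, rfl⟩ := t1 y hy
          exact ⟨j, by omega, hjn, rfl⟩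
      rw [hp]
      refine ⟨hmem, ⟨?_, ⟨?_, t2.nochord⟩, ?_⟩, ?_, ?_⟩
      · rw [List.isChain_cons]
        refine ⟨?_, t2.chain⟩
        intro y hy
        rw [hhead] at hy
        simp only [Option.mem_def, Option.some.injEq] at hy
        rw [← hy]
        exact hj3
      · intro y hy
        obtain ⟨j, hj, hjn, rfl⟩ := t1 y hy
        exact hj4 j hj hjn
      · rw [List.pairwise_cons]
        refine ⟨?_, t2.nr⟩
        intro y hy
        obtain ⟨j, hj, hjn, rfl⟩ := hmem y hy
        exact hP.nr i j hj hjn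
      · intro q hq
        rw [← getLast?_suffix hne (List.suffix_cons _ _)] at hq
        exact t3 q hq
      · intro q hq
        rw [List.dropLast_cons_of_ne_nil hne] at hq
        rcases List.mem_cons.1 hq with rfl | hq
        · exact hi
        · exact t4 q hq

omit [Fintype V] in
/-- Two truncated greedy paths from the same vertex are comparable. -/
theorem path_compare (u : ℕ → V) (n : ℕ) (x y : V) : ∀ f i,
    path D u n x f i = path D u n y f i ∨
      (∃ q ∈ (path D u n x f i).getLast?, q ∈ (path D u n y f i).dropLast) ∨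
      ∃ q ∈ (path D u n y f i).getLast?, q ∈ (path D u n x f i).dropLast := by
  classical
  intro f
  induction f with
  | zero => exact fun i => Or.inl rfl
  | succ f ih =>
    intro i
    have hnx := path_ne_nil (D := D) u n x f (nxt D u n i)
    have hny := path_ne_nil (D := D) u n y f (nxt D u n i)
    by_cases hx : D.arc (u i) x
    · have hpx : path D u n x (f + 1) i = [u i] := by simp [path, hx]
      by_cases hy : D.arc (u i) y
      · have hpy : path D u n y (f + 1) i = [u i] := by simp [path, hy]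
        exact Or.inl (hpx.trans hpy.symm)
      · have hpy : path D u n y (f + 1) i = u i :: path D u n y f (nxt D u n i) := by
          simp [path, hy]
        refine Or.inr (Or.inl ⟨u i, by simp [hpx], ?_⟩)
        rw [hpy, List.dropLast_cons_of_ne_nil hny]
        exact List.mem_cons_self
    · have hpx : path D u n x (f + 1) i = u i :: path D u n x f (nxt D u n i) := by
        simp [path, hx]
      by_cases hy : D.arc (u i) y
      · have hpy : path D u n y (f + 1) i = [u i] := by simp [path, hy]
        refine Or.inr (Or.inr ⟨u i, by simp [hpy], ?_⟩)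
        rw [hpx, List.dropLast_cons_of_ne_nil hnx]
        exact List.mem_cons_self
      · have hpy : path D u n y (f + 1) i = u i :: path D u n y f (nxt D u n i) := by
          simp [path, hy]
        rw [hpx, hpy, List.dropLast_cons_of_ne_nil hnx, List.dropLast_cons_of_ne_nil hny,
          ← getLast?_suffix hnx (List.suffix_cons (u i) _),
          ← getLast?_suffix hny (List.suffix_cons (u i) _)]
        rcases ih (nxt D u n i) with h | ⟨q, h1, h2⟩ | ⟨q, h1, h2⟩
        · exact Or.inl (by rw [h])
        · exact Or.inr (Or.inl ⟨q, h1, List.mem_cons_of_mem _ h2⟩)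
        · exact Or.inr (Or.inr ⟨q, h1, List.mem_cons_of_mem _ h2⟩)

/-- Out-neighbours of the last vertex of a walk without short returns that are near to the walk
are saturated by every fractional matching. -/
theorem saturated (hw : ∀ v, 0 < w v) (hp : ∀ v, ∃ φ, Plan D w v φ) {u : ℕ → V} {n : ℕ}
    (hP : NRWalk D u n) {φ' : V → V → ℝ} (hφ' : Plan D w (u n) φ') {x : V}
    (hx : D.arc (u n) x) (hn : ∃ i, i ≤ n ∧ Near D x (u i)) : ∑ z, φ' x z = w x := by
  classical
  choose φ hφ using hp
  set r : V → ℕ := fun x => Nat.findGreatest (fun i => Near D x (u i)) n with hr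
  set L : V → List V := fun x => path D u n x n (r x) with hL
  have hLne : ∀ x, L x ≠ [] := fun x => path_ne_nil u n x _ _
  set ℓ : V → V := fun x => (L x).getLast (hLne x) with hℓ
  have hℓ' : ∀ x, ℓ x ∈ (L x).getLast? := fun x => by
    rw [List.getLast?_eq_some_getLast (hLne x)]
    rfl
  set M : Finset V := univ.filter fun x => D.arc (u n) x ∧ ∃ i, i ≤ n ∧ Near D x (u i) with hM
  set Z : Finset V := (N2 D (u n)).filter fun z => ∃ i, i ≤ n ∧ D.arc z (u i) with hZ
  have hrn : ∀ x, r x ≤ n := fun x => Nat.findGreatest_le n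
  have hr1 : ∀ x, (∃ i, i ≤ n ∧ Near D x (u i)) → Near D x (u (r x)) := by
    rintro x ⟨i, hi, hni⟩
    exact Nat.findGreatest_spec (P := fun i => Near D x (u i)) hi hni
  have hr2 : ∀ x i, r x < i → i ≤ n → ¬ Near D x (u i) := fun x i hi hin =>
    Nat.findGreatest_is_greatest (P := fun i => Near D x (u i)) hi hin
  have hr3 : ∀ x i, i ≤ n → Near D x (u i) → i ≤ r x := fun x i hi hni =>
    Nat.le_findGreatest hi hni
  have hspec : ∀ x, D.arc (u n) x → _ := fun x hx =>
    path_spec hP (x := x) hx n (r x) (hrn x) (by omega)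
  have hout : ∀ x, D.arc (u n) x → (∃ i, i ≤ n ∧ Near D x (u i)) → Out D (L x) x := by
    intro x hx hn
    obtain ⟨t1, -, t3, t4⟩ := hspec x hx
    refine ⟨t3, t4, ?_, ?_⟩
    · intro q hq
      rw [hL, path_head] at hq
      simp only [Option.mem_def, Option.some.injEq] at hq
      rw [← hq]
      rcases Nat.lt_or_eq_of_le (hrn x) with h | h
      · exact mem_N2_of_near (hr1 x hn) (hP.arc _ h) (hr2 x _ (Nat.lt_succ_self _) h)
      · refine mem_N2_of_near_of_arc (hr1 x hn) ?_
        rw [h]
        exact hx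
    · intro q hq
      obtain ⟨j, hj, hjn, rfl⟩ := t1 q hq
      exact hr2 x j hj hjn
  have hex : ∀ x, D.arc (u n) x → (∃ i, i ≤ n ∧ Near D x (u i)) →
      (∀ z, φ (ℓ x) x z ≠ 0 → Inn D (L x) z) ∧ ∑ z, φ (ℓ x) x z = w x := by
    intro x hx hn
    exact exact_all hw (fun v => ⟨φ v, hφ v⟩) (L x) (hLne x) (hspec x hx).2.1 (ℓ x) (hℓ' x)
      (φ (ℓ x)) (hφ (ℓ x)) x (hout x hx hn)
  have harcz : ∀ x z, D.arc (u n) x → (∃ i, i ≤ n ∧ Near D x (u i)) → φ (ℓ x) x z ≠ 0 →
      D.arc z (u (r x)) := by
    intro x z hx hn hne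
    refine ((hex x hx hn).1 z hne).arc _ ?_
    rw [hL, path_head]
    rfl
  -- the amounts go to `Z`
  have hto : ∀ x ∈ M, ∀ z, φ (ℓ x) x z ≠ 0 → z ∈ Z := by
    intro x hxM z hne
    rw [hM, Finset.mem_filter] at hxM
    obtain ⟨-, hx, hn⟩ := hxM
    have hzr := harcz x z hx hn hne
    have hxz := ((hφ (ℓ x)).supp x z hne).2.1
    rw [hZ, Finset.mem_filter, mem_N2]
    refine ⟨⟨?_, ?_, x, hx, hxz⟩, r x, hrn x, hzr⟩
    · rintro rfl
      exact D.asymm _ _ hx hxz
    · intro h
      rcases Nat.lt_or_eq_of_le (hrn x) with hlt | heq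
      · exact hP.nr _ _ hlt le_rfl (near_of_two h hzr)
      · rw [heq] at hzr
        exact D.asymm _ _ h hzr
  have hcol : ∀ z, ∑ x ∈ M, φ (ℓ x) x z ≤ w z := by
    intro z
    by_cases hall : ∀ x ∈ M, φ (ℓ x) x z = 0
    · rw [Finset.sum_eq_zero hall]
      exact (hw z).le
    · push Not at hall
      obtain ⟨x0, hx0M, hx0⟩ := hall
      have hx0M' := hx0M
      rw [hM, Finset.mem_filter] at hx0M'
      obtain ⟨-, ha0, hn0⟩ := hx0M'
      have hsame : ∀ x ∈ M, φ (ℓ x) x z ≠ 0 → ℓ x = ℓ x0 := by
        intro x hxM hne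
        rw [hM, Finset.mem_filter] at hxM
        obtain ⟨-, hx, hn⟩ := hxM
        have h1 := ((hφ (ℓ x)).supp x z hne).2.1
        have h2 := ((hφ (ℓ x0)).supp x0 z hx0).2.1
        have hrr : r x = r x0 := by
          apply le_antisymm
          · exact hr3 x0 _ (hrn x) (near_of_two h2 (harcz x z hx hn hne))
          · exact hr3 x _ (hrn x0) (near_of_two h1 (harcz x0 z ha0 hn0 hx0))
        have hLx0 : L x0 = path D u n x0 n (r x) := by rw [hrr]
        rcases path_compare (D := D) u n x x0 n (r x) with h | ⟨q, hq1, hq2⟩ | ⟨q, hq1, hq2⟩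
        · have : L x = L x0 := by rw [hLx0]; exact h
          rw [hℓ]
          simp only [this]
        · exfalso
          rw [← hLx0] at hq2
          have hq : q = ℓ x := by
            have := hℓ' x
            rw [Option.mem_def] at this hq1
            rw [hL] at this
            rw [this] at hq1
            exact (Option.some_injective _ hq1).symm
          have := ((hex x0 ha0 hn0).1 z hx0).nr q hq2
          exact this (near_of_two (hq ▸ ((hφ (ℓ x)).supp x z hne).1) h1)
        · exfalso
          rw [← hLx0] at hq1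
          have hq : q = ℓ x0 := by
            have := hℓ' x0
            rw [Option.mem_def] at this hq1
            rw [this] at hq1
            exact (Option.some_injective _ hq1).symm
          have := ((hex x hx hn).1 z hne).nr q hq2
          exact this (near_of_two (hq ▸ ((hφ (ℓ x0)).supp x0 z hx0).1) h2)
      by_cases hz : z ∈ N2 D (ℓ x0)
      · rw [← (hφ (ℓ x0)).cover z hz]
        refine le_trans (Finset.sum_le_sum (g := fun x => φ (ℓ x0) x z) fun x hxM => ?_)
          (Finset.sum_le_sum_of_subset_of_nonneg (Finset.subset_univ M)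
            fun y _ _ => (hφ (ℓ x0)).nonneg y z)
        by_cases hne : φ (ℓ x) x z = 0
        · rw [hne]
          exact (hφ (ℓ x0)).nonneg x z
        · rw [hsame x hxM hne]
      · exact absurd ((hφ (ℓ x0)).supp x0 z hx0).2.2 hz
  -- `w(M) ≤ w(Z)`
  have hMZ : ∑ x ∈ M, w x ≤ ∑ z ∈ Z, w z := by
    calc ∑ x ∈ M, w x = ∑ x ∈ M, ∑ z, φ (ℓ x) x z := by
          refine Finset.sum_congr rfl fun x hxM => ?_
          rw [hM, Finset.mem_filter] at hxM
          exact (hex x hxM.2.1 hxM.2.2).2.symm
      _ = ∑ x ∈ M, ∑ z ∈ Z, φ (ℓ x) x z := by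
          refine Finset.sum_congr rfl fun x hxM => ?_
          refine (Finset.sum_subset (Finset.subset_univ Z) fun z _ hz => ?_).symm
          by_contra hne
          exact hz (hto x hxM z hne)
      _ = ∑ z ∈ Z, ∑ x ∈ M, φ (ℓ x) x z := Finset.sum_comm
      _ ≤ ∑ z ∈ Z, w z := Finset.sum_le_sum fun z _ => hcol z
  -- the given matching sends `Z` into `M`
  have hback : ∀ z ∈ Z, ∀ y, φ' y z ≠ 0 → y ∈ M := by
    intro z hz y hne
    obtain ⟨h1, h2, -⟩ := hφ'.supp y z hne
    rw [hZ, Finset.mem_filter] at hz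
    obtain ⟨-, i, hi, hzi⟩ := hz
    rw [hM, Finset.mem_filter]
    exact ⟨Finset.mem_univ _, h1, i, hi, near_of_two h2 hzi⟩
  have hterm : ∀ y ∈ M, ∑ z ∈ Z, φ' y z ≤ ∑ z, φ' y z := fun y _ =>
    Finset.sum_le_sum_of_subset_of_nonneg (Finset.subset_univ Z) fun z _ _ => hφ'.nonneg y z
  have hterm2 : ∀ y ∈ M, ∑ z, φ' y z ≤ w y := by
    intro y hy
    rw [hM, Finset.mem_filter] at hy
    exact hφ'.cap y hy.2.1
  have hZM : ∑ z ∈ Z, w z = ∑ y ∈ M, ∑ z ∈ Z, φ' y z := by
    rw [Finset.sum_comm]
    refine Finset.sum_congr rfl fun z hz => ?_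
    rw [← hφ'.cover z (Finset.mem_filter.1 hz).1]
    refine (Finset.sum_subset (Finset.subset_univ M) fun y _ hy => ?_).symm
    by_contra hne
    exact hy (hback z hz y hne)
  have hfin : ∑ y ∈ M, ∑ z ∈ Z, φ' y z = ∑ y ∈ M, w y :=
    le_antisymm (Finset.sum_le_sum fun y hy => (hterm y hy).trans (hterm2 y hy))
      (hZM ▸ hMZ)
  have hxM : x ∈ M := by
    rw [hM, Finset.mem_filter]
    exact ⟨Finset.mem_univ _, hx, hn⟩
  have h1 := (Finset.sum_eq_sum_iff_of_le
    (fun y hy => (hterm y hy).trans (hterm2 y hy))).1 hfin x hxM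
  exact le_antisymm (hterm2 x hxM) (h1 ▸ hterm x hxM)

/-- A walk along arcs that are not needed never returns within distance two. -/
theorem nrWalk_of_unsat (hw : ∀ v, 0 < w v) (hp : ∀ v, ∃ φ, Plan D w v φ) {u : ℕ → V} :
    ∀ n, (∀ i < n, Unsat D w (u i) (u (i + 1))) → NRWalk D u n := by
  intro n
  induction n with
  | zero =>
    intro _
    exact ⟨fun i hi => absurd hi (Nat.not_lt_zero i), fun i j hij hj => by omega⟩
  | succ n ih =>
    intro h
    have hP := ih fun i hi => h i (Nat.lt_succ_of_lt hi)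
    obtain ⟨hx, φ', hφ', hlt⟩ := h n (Nat.lt_succ_self n)
    refine ⟨fun i hi => (h i hi).1, fun i j hij hj => ?_⟩
    rcases Nat.lt_or_eq_of_le hj with hj | rfl
    · exact hP.nr i j hij (Nat.lt_succ_iff.1 hj)
    · intro hnear
      have := saturated hw hp hP hφ' hx ⟨i, Nat.lt_succ_iff.1 hij, hnear⟩
      linarith

/-- The arcs that are not needed form an acyclic relation. -/
theorem exists_no_unsat [Nonempty V] (hw : ∀ v, 0 < w v) (hp : ∀ v, ∃ φ, Plan D w v φ) :
    ∃ v, ∀ x, ¬ Unsat D w v x := by
  classical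
  by_contra hcon
  push Not at hcon
  choose f hf using hcon
  obtain ⟨v0⟩ := ‹Nonempty V›
  set u : ℕ → V := fun i => f^[i] v0 with hu
  have hstep : ∀ i, Unsat D w (u i) (u (i + 1)) := by
    intro i
    rw [hu]
    simp only [Function.iterate_succ_apply']
    exact hf _
  obtain ⟨i, j, hij, heq⟩ := Finite.exists_ne_map_eq_of_infinite u
  rcases Nat.lt_or_gt_of_ne hij with h | h
  · exact (nrWalk_of_unsat hw hp j fun i _ => hstep i).nr i j h le_rfl (Or.inl heq.symm)
  · exact (nrWalk_of_unsat hw hp i fun i _ => hstep i).nr j i h le_rfl (Or.inl heq)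

/-- Seymour's inequality, with equality, under the fractional matching hypothesis. -/
theorem exists_eq_of_plan [Nonempty V] (hw : ∀ v, 0 < w v) (hp : ∀ v, ∃ φ, Plan D w v φ) :
    ∃ v, ∑ x ∈ N1 D v, w x = ∑ z ∈ N2 D v, w z := by
  classical
  obtain ⟨v, hv⟩ := exists_no_unsat hw hp
  obtain ⟨φ, hφ⟩ := hp v
  refine ⟨v, ?_⟩
  have h1 : ∀ x ∈ N1 D v, w x = ∑ z ∈ N2 D v, φ x z := by
    intro x hx
    rw [mem_N1] at hx
    have h2 : ∑ z, φ x z = w x := by
      refine le_antisymm (hφ.cap x hx) ?_
      by_contra hlt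
      exact hv x ⟨hx, φ, hφ, not_le.1 hlt⟩
    rw [← h2]
    refine (Finset.sum_subset (Finset.subset_univ _) fun z _ hz => ?_).symm
    by_contra hne
    exact hz (hφ.supp x z hne).2.2
  rw [Finset.sum_congr rfl h1, Finset.sum_comm]
  refine Finset.sum_congr rfl fun z hz => ?_
  rw [← hφ.cover z hz]
  refine Finset.sum_subset (Finset.subset_univ _) fun x _ hx => ?_
  by_contra hne
  exact hx (mem_N1.2 (hφ.supp x z hne).1)

end Vale.Agent.P038.H194
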